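import Vale.Agent.P366Y.Full

namespace Vale.Agent.Results.P366.AAAFullDomains
open Vale.Agent.P366 Vale.Agent.P366.Stmt

/-- The spacetime Penrose inequality with the sharp constant in every dimension `n ≥ 3` for all
asymptotically flat data with the dominant energy condition on an exterior domain of Euclidean
space with a weakly future trapped, possibly disconnected boundary. -/
theorem result (n : ℕ) (hn : 3 ≤ n) (D : Stmt.Exterior n) (hAF : D.IsAF) (hDEC : D.DEC)
    (hT : D.Trapped) (m : ℝ) (P : Fin n → ℝ) (hm : D.IsEnergy m) (hP : D.IsMomentum P) :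
    D.Amin ≠ ⊤ ∧ √(∑ i, P i ^ 2) < m ∧
      (D.Amin.toReal / Stmt.omega n) ^ (((n : ℝ) - 2) / (n - 1)) / 2 ≤ √(m ^ 2 - ∑ i, P i ^ 2) :=
  Vale.Agent.P366Y.full n D m P hn hAF hDEC hT hm hP

end Vale.Agent.Results.P366.AAAFullDomains
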