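import Vale.Agent.P366Z.All0
import Vale.Agent.P366Z.Cor
import Vale.Agent.P366Z.Ex3
import Vale.Agent.P366Z.Dens
import Vale.Agent.P366Z.Stab
import Vale.Agent.P366Z.St0.All

namespace Vale.Agent.Results.P366.AARiemannianAllDim
open Vale.Agent.P366 Vale.Agent.P366.Stmt

/-- The Penrose inequality with the sharp constant in every dimension `n ≥ 3`, without symmetry and
for a possibly disconnected boundary: for time symmetric data, and with the energy for data with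
`(tr K)² ≤ |K|²` (for example maximal data) and `0 ≤ tr_S K` on the boundary. -/
theorem result (n : ℕ) (hn : 3 ≤ n) (D : Stmt.Exterior n) (hAF : D.IsAF) (hDEC : D.DEC)
    (hT : D.Trapped) (m : ℝ) (P : Fin n → ℝ) (hm : D.IsEnergy m) (hP : D.IsMomentum P) :
    ((∀ x, 0 ≤ D.F x → D.K x = 0) → D.Amin ≠ ⊤ ∧ P = 0 ∧ √(∑ i, P i ^ 2) ≤ m ∧
      (D.Amin.toReal / Stmt.omega n) ^ (((n : ℝ) - 2) / (n - 1)) / 2 ≤
        √(m ^ 2 - ∑ i, P i ^ 2)) ∧
    ((∀ x, 0 ≤ D.F x → tr D.g D.K x ^ 2 ≤ normSq D.g D.K x) →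
      (∀ x, D.F x = 0 → 0 ≤ trS D.g D.K D.F x) →
      D.Amin ≠ ⊤ ∧ (D.Amin.toReal / Stmt.omega n) ^ (((n : ℝ) - 2) / (n - 1)) / 2 ≤ m) :=
  open P366Z in
  cor_main (All.rpi_of' (ex_of All.res reg grad wmb All.chain stwt) (dens_of All.gw stwt)
    (stab_of grad newt asy) step0) hn D hAF hDEC hT m P hm hP

end Vale.Agent.Results.P366.AARiemannianAllDim
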